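import Mathlib

namespace Vale.Agent.Lib.P330

/-- A gate of a generalized circuit, given by its kind, its rational parameter (if any) and its
input nodes.  The output node is the node the gate is attached to (see `GCircuit`). -/
inductive Gate (V : Type) : Type
  | const (α : ℚ)
  | scale (α : ℚ) (a : V)
  | copy (a : V)
  | add (a b : V)
  | sub (a b : V)
  | less (a b : V)
  | neg (a : V)
  | disj (a b : V)
  | conj (a b : V)

/-- A generalized circuit on the node set `V`: every node is the output of at most one gate
(`gate z = some g` means that `g` is the gate with output node `z`), there is at least one gate,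
directed cycles are allowed, and the parameters of Constant and Scale gates lie in `[0,1]`. -/
structure GCircuit (V : Type) where
  gate : V → Option (Gate V)
  nonempty : ∃ z, gate z ≠ none
  const_param : ∀ z α, gate z = some (Gate.const α) → 0 ≤ α ∧ α ≤ 1
  scale_param : ∀ z α a, gate z = some (Gate.scale α a) → 0 ≤ α ∧ α ≤ 1

/-- `g.Sat ε x z`: the gate `g` with output node `z` is `ε`-satisfied by the assignment `x`. -/
def Gate.Sat {V : Type} (ε : ℝ) (x : V → ℝ) (z : V) : Gate V → Prop
  | Gate.const α => |x z - (α : ℝ)| ≤ ε
  | Gate.scale α a => |x z - (α : ℝ) * x a| ≤ ε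
  | Gate.copy a => |x z - x a| ≤ ε
  | Gate.add a b => |x z - min (x a + x b) 1| ≤ ε
  | Gate.sub a b => |x z - max (x a - x b) 0| ≤ ε
  | Gate.less a b => (x a < x b - ε → 1 - ε ≤ x z) ∧ (x b + ε < x a → x z ≤ ε)
  | Gate.neg a => (x a ≤ ε → 1 - ε ≤ x z) ∧ (1 - ε ≤ x a → x z ≤ ε)
  | Gate.disj a b => ((1 - ε ≤ x a ∨ 1 - ε ≤ x b) → 1 - ε ≤ x z) ∧ ((x a ≤ ε ∧ x b ≤ ε) → x z ≤ ε)
  | Gate.conj a b => ((1 - ε ≤ x a ∧ 1 - ε ≤ x b) → 1 - ε ≤ x z) ∧ ((x a ≤ ε ∨ x b ≤ ε) → x z ≤ ε)

/-- The flat information order on states `V → Option α`: `t` extends `s`. -/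
def FlatLe {V α : Type} (s t : V → Option α) : Prop := ∀ v a, s v = some a → t v = some a

/-- Iterating a map that is monotone for the flat order, `card V` times from the everywhere
undefined state, reaches a fixed point. -/
theorem iterate_fixed {V α : Type} [Fintype V] (Φ : (V → Option α) → (V → Option α))
    (mono : ∀ s t, FlatLe s t → FlatLe (Φ s) (Φ t)) :
    Φ (Φ^[Fintype.card V] (fun _ => none)) = Φ^[Fintype.card V] (fun _ => none) := by
  classical
  set s : ℕ → (V → Option α) := fun k => Φ^[k] (fun _ => none) with hs
  have hsucc : ∀ k, s (k + 1) = Φ (s k) := fun k => Function.iterate_succ_apply' Φ k _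
  have chain : ∀ k, FlatLe (s k) (s (k + 1)) := by
    intro k
    induction k with
    | zero => intro v a h; simp [hs] at h
    | succ k ih => rw [hsucc k, hsucc (k + 1)]; exact mono _ _ ih
  set c : ℕ → ℕ := fun k => (Finset.univ.filter (fun v => (s k v).isSome)).card with hc
  have hlt : ∀ k, s (k + 1) ≠ s k → c k < c (k + 1) := by
    intro k hne
    apply Finset.card_lt_card
    rw [Finset.ssubset_iff_of_subset]
    · obtain ⟨v, hv⟩ : ∃ v, s (k + 1) v ≠ s k v := by
        by_contra hcon
        simp only [not_exists, not_not] at hcon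
        exact hne (funext hcon)
      refine ⟨v, ?_, ?_⟩
      · simp only [Finset.mem_filter, Finset.mem_univ, true_and]
        rcases hk : s k v with _ | a
        · rcases hk1 : s (k + 1) v with _ | b
          · rw [hk, hk1] at hv; exact absurd rfl hv
          · simp
        · exact absurd (chain k v a hk) (by rw [hk] at hv; exact hv)
      · simp only [Finset.mem_filter, Finset.mem_univ, true_and]
        rcases hk : s k v with _ | a
        · simp
        · exact absurd (chain k v a hk) (by rw [hk] at hv; exact hv)
    · intro v hv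
      simp only [Finset.mem_filter, Finset.mem_univ, true_and] at hv ⊢
      obtain ⟨a, ha⟩ := Option.isSome_iff_exists.mp hv
      rw [chain k v a ha]; simp
  have key : ∀ k, s (k + 1) = s k ∨ k + 1 ≤ c (k + 1) := by
    intro k
    induction k with
    | zero =>
      by_cases h : s 1 = s 0
      · exact Or.inl h
      · right; have := hlt 0 h; omega
    | succ k ih =>
      rcases ih with ih | ih
      · left; rw [hsucc (k + 1), ih, ← hsucc k, ih]
      · by_cases h : s (k + 1 + 1) = s (k + 1)
        · exact Or.inl h
        · right; have := hlt (k + 1) h; omega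
  have hcle : ∀ k, c k ≤ Fintype.card V := by
    intro k
    exact (Finset.card_le_univ _)
  rcases key (Fintype.card V) with h | h
  · rw [hsucc] at h; exact h
  · have := hcle (Fintype.card V + 1); omega

end Vale.Agent.Lib.P330
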